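import Crest.Agent.Helper75.OT.Defs

/-!
# Row 82 (S0109), WP L2: uniqueness of Laguerre weights up to an additive constant

`Crest.Agent.Helper56.OT.lagWeights_unique` is the statement `Spec.lagWeights_unique` verbatim
(namespace `Crest.Agent.Helper56.OT` instead of `Crest.Agent.Helper75.OT.Spec`).
Self-contained: imports only the shared definitions; the few facts on the source measure and on
Laguerre cells that are needed are proved here, in this namespace.

Proof. Let `δ = w' - w` on `S`, `κ = max δ`, `I = {δ = κ}`, `J = {δ < κ}`; assume `J ≠ ∅` and let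
`η > 0` be the gap. The cells of `w'` with index in `I` and the cells of `w` with index in `J` are
pairwise a.e. disjoint and their masses add up to `1`, so their union is co-null. With
`G = max_I (⟪x,p⟫ - w p) - max_J (⟪x,q⟫ - w q)` one has `G ≤ 0` on the `J`-cells of `w` and
`G ≥ η` on the `I`-cells of `w'`; hence `{0 < G < η} ∩ K` is null. But it is relatively open in `K`
and nonempty (intermediate value theorem along a segment of the convex set `K`), so it has
positive mass: contradiction.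
-/

set_option autoImplicit false

noncomputable section

open MeasureTheory Filter Topology Set
open scoped ENNReal NNReal RealInnerProductSpace

namespace Crest.Agent.Helper56.OT

open Crest.AnalysisR.OT Crest.Agent.Helper75.OT

variable {d : ℕ}

/-! ### The source measure -/

lemma vol_ne_top {K : Set (E d)} (hK : Body K) : volume K ≠ ⊤ :=
  hK.compact.measure_lt_top.ne

lemma vol_ne_zero {K : Set (E d)} (hK : Body K) : volume K ≠ 0 := by
  have h1 : 0 < volume (interior K) := isOpen_interior.measure_pos volume hK.inter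
  exact (h1.trans_le (measure_mono interior_subset)).ne'

lemma rho_apply {K : Set (E d)} (hK : Body K) (A : Set (E d)) :
    (uniformProbOn K) A = (volume K)⁻¹ * volume (A ∩ K) := by
  unfold uniformProbOn
  rw [Measure.smul_apply, Measure.restrict_apply' hK.compact.measurableSet, smul_eq_mul]

lemma rho_univ {K : Set (E d)} (hK : Body K) : (uniformProbOn K) Set.univ = 1 := by
  rw [rho_apply hK, Set.univ_inter]
  exact ENNReal.inv_mul_cancel (vol_ne_zero hK) (vol_ne_top hK)

lemma rho_prob {K : Set (E d)} (hK : Body K) : IsProbabilityMeasure (uniformProbOn K) :=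
  ⟨rho_univ hK⟩

lemma rho_compl {K : Set (E d)} (hK : Body K) : (uniformProbOn K) Kᶜ = 0 := by
  rw [rho_apply hK]
  simp

lemma rho_null_of_volume_null {K : Set (E d)} (hK : Body K) {A : Set (E d)}
    (hA : volume A = 0) : (uniformProbOn K) A = 0 := by
  rw [rho_apply hK]
  have h0 : volume (A ∩ K) = 0 := measure_mono_null Set.inter_subset_left hA
  rw [h0, mul_zero]

/-- Hyperplanes are Lebesgue-null. -/
lemma volume_hyperplane (a : E d) (ha : a ≠ 0) (t : ℝ) :
    volume {x : E d | ⟪x, a⟫ = t} = 0 := by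
  rcases Set.eq_empty_or_nonempty {x : E d | ⟪x, a⟫ = t} with h | ⟨x₀, hx₀⟩
  · rw [h]; exact measure_empty
  let V : Submodule ℝ (E d) := LinearMap.ker (innerSL ℝ a : E d →L[ℝ] ℝ).toLinearMap
  let s : AffineSubspace ℝ (E d) := AffineSubspace.mk' x₀ V
  have hsub : {x : E d | ⟪x, a⟫ = t} ⊆ (s : Set (E d)) := by
    intro x hx
    rw [SetLike.mem_coe, AffineSubspace.mem_mk']
    show (x -ᵥ x₀) ∈ LinearMap.ker (innerSL ℝ a : E d →L[ℝ] ℝ).toLinearMap
    rw [LinearMap.mem_ker]
    simp only [vsub_eq_sub, ContinuousLinearMap.coe_coe, innerSL_apply_apply, inner_sub_right]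
    rw [real_inner_comm x a, real_inner_comm x₀ a]
    have h1 : ⟪x, a⟫ = t := hx
    have h2 : ⟪x₀, a⟫ = t := hx₀
    rw [h1, h2, sub_self]
  have hs : s ≠ ⊤ := by
    intro htop
    have h1 : x₀ + a ∈ s := by rw [htop]; exact AffineSubspace.mem_top _ _ _
    rw [AffineSubspace.mem_mk'] at h1
    have h2 : (x₀ + a) -ᵥ x₀ ∈ LinearMap.ker (innerSL ℝ a : E d →L[ℝ] ℝ).toLinearMap := h1
    rw [LinearMap.mem_ker] at h2
    simp only [vsub_eq_sub, add_sub_cancel_left, ContinuousLinearMap.coe_coe,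
      innerSL_apply_apply] at h2
    exact ha (inner_self_eq_zero.mp h2)
  exact measure_mono_null hsub (Measure.addHaar_affineSubspace volume s hs)

/-- A relatively open nonempty piece of `K` has positive mass. -/
lemma rho_pos_of_open {K : Set (E d)} (hK : Body K) {U : Set (E d)} (hU : IsOpen U)
    (hne : (U ∩ K).Nonempty) : 0 < (uniformProbOn K) U := by
  obtain ⟨x, hxU, hxK⟩ := hne
  obtain ⟨y, hy⟩ := hK.inter
  have hcont : Continuous fun t : ℝ => x + t • (y - x) := by fun_prop
  have hmem : ∀ᶠ t in 𝓝 (0 : ℝ), x + t • (y - x) ∈ U := by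
    have h0 : (fun t : ℝ => x + t • (y - x)) ⁻¹' U ∈ 𝓝 (0 : ℝ) := by
      apply (hU.preimage hcont).mem_nhds
      simpa using hxU
    exact h0
  have hpos : ∀ᶠ t in 𝓝[>] (0 : ℝ), t ∈ Set.Ioc (0 : ℝ) 1 := Ioc_mem_nhdsGT (by norm_num)
  obtain ⟨t, htU, ht⟩ := ((hmem.filter_mono nhdsWithin_le_nhds).and hpos).exists
  have hint : x + t • (y - x) ∈ interior K := hK.convex.add_smul_sub_mem_interior hxK hy ht
  have hopen : IsOpen (U ∩ interior K) := hU.inter isOpen_interior
  have h1 : 0 < volume (U ∩ interior K) := hopen.measure_pos volume ⟨_, htU, hint⟩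
  have h2 : 0 < volume (U ∩ K) :=
    h1.trans_le (measure_mono (Set.inter_subset_inter_right U interior_subset))
  rw [rho_apply hK]
  exact ENNReal.mul_pos (ENNReal.inv_ne_zero.mpr (vol_ne_top hK)) h2.ne'

/-! ### Laguerre cells -/

lemma isClosed_Lag {K : Set (E d)} (hK : Body K) (S : Finset (E d)) (w : E d → ℝ) (c : E d) :
    IsClosed (Lag K S w c) := by
  have h0 : Lag K S w c = K ∩ ⋂ c' ∈ S, {x : E d | ⟪x, c'⟫ - w c' ≤ ⟪x, c⟫ - w c} := by
    ext x; simp [Lag]
  rw [h0]
  refine hK.compact.isClosed.inter (isClosed_biInter fun c' _ => ?_)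
  exact isClosed_le (by fun_prop) (by fun_prop)

lemma Lag_inter_null {K : Set (E d)} (hK : Body K) (S : Finset (E d)) (w : E d → ℝ) {c c' : E d}
    (hc : c ∈ S) (hc' : c' ∈ S) (hne : c ≠ c') :
    (uniformProbOn K) (Lag K S w c ∩ Lag K S w c') = 0 := by
  apply rho_null_of_volume_null hK
  refine measure_mono_null ?_ (volume_hyperplane (c - c') (sub_ne_zero.mpr hne) (w c - w c'))
  rintro x ⟨hx, hx'⟩
  have h1 := hx.2 c' hc'
  have h2 := hx'.2 c hc
  show ⟪x, c - c'⟫ = w c - w c'
  rw [inner_sub_right]; linarith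

lemma subset_iUnion_Lag (K : Set (E d)) (S : Finset (E d)) (hS : S.Nonempty) (w : E d → ℝ) :
    K ⊆ ⋃ c ∈ S, Lag K S w c := by
  intro x hx
  obtain ⟨c, hc, hmax⟩ := S.exists_max_image (fun c => ⟪x, c⟫ - w c) hS
  exact Set.mem_biUnion hc ⟨hx, fun c' hc' => hmax c' hc'⟩

lemma sum_rho_Lag {K : Set (E d)} (hK : Body K) (S : Finset (E d)) (hS : S.Nonempty)
    (w : E d → ℝ) : ∑ c ∈ S, (uniformProbOn K) (Lag K S w c) = 1 := by
  have hprob : IsProbabilityMeasure (uniformProbOn K) := rho_prob hK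
  have hd : Set.Pairwise (↑S) (Function.onFun (AEDisjoint (uniformProbOn K)) fun c => Lag K S w c) := by
    intro c hc c' hc' hne
    exact Lag_inter_null hK S w hc hc' hne
  rw [← measure_biUnion_finset₀ hd
    (fun c _ => (isClosed_Lag hK S w c).measurableSet.nullMeasurableSet)]
  apply le_antisymm prob_le_one
  have hKone : (uniformProbOn K) K = 1 := by
    rw [rho_apply hK, Set.inter_self]
    exact ENNReal.inv_mul_cancel (vol_ne_zero hK) (vol_ne_top hK)
  rw [← hKone]
  exact measure_mono (subset_iUnion_Lag K S hS w)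

/-! ### Uniqueness -/

/-- **WP L2** (`Spec.lagWeights_unique`): two weight vectors realising the same positive cell
masses differ by a constant on the support. -/
theorem lagWeights_unique {K : Set (E d)} (hK : Body K) (S : Finset (E d)) (g : E d → ℝ)
    (hg : ∀ c ∈ S, 0 < g c) (w w' : E d → ℝ) (h : IsLagWeights K S g w)
    (h' : IsLagWeights K S g w') : ∃ κ : ℝ, ∀ c ∈ S, w' c = w c + κ := by
  classical
  rcases S.eq_empty_or_nonempty with hS | hS
  · exact ⟨0, by simp [hS]⟩
  have hprob : IsProbabilityMeasure (uniformProbOn K) := rho_prob hK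
  let δ : E d → ℝ := fun c => w' c - w c
  let κ : ℝ := S.sup' hS δ
  have hκ : ∀ c ∈ S, δ c ≤ κ := fun c hc => Finset.le_sup' δ hc
  refine ⟨κ, ?_⟩
  by_contra hcon
  let I : Finset (E d) := S.filter fun c => δ c = κ
  let J : Finset (E d) := S.filter fun c => δ c < κ
  have hI : I.Nonempty := by
    obtain ⟨p, hp, hpe⟩ := Finset.exists_mem_eq_sup' hS δ
    exact ⟨p, Finset.mem_filter.mpr ⟨hp, hpe.symm⟩⟩
  have hJ : J.Nonempty := by
    obtain ⟨q, hq'⟩ := not_forall.mp hcon
    obtain ⟨hq, hne⟩ := Classical.not_imp.mp hq'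
    refine ⟨q, Finset.mem_filter.mpr ⟨hq, lt_of_le_of_ne (hκ q hq) ?_⟩⟩
    intro he
    apply hne
    have he' : w' q - w q = κ := he
    linarith
  -- the gap
  let η : ℝ := κ - J.sup' hJ δ
  have hη : 0 < η := by
    obtain ⟨q, hq, hqe⟩ := Finset.exists_mem_eq_sup' hJ δ
    have hlt : δ q < κ := (Finset.mem_filter.mp hq).2
    show 0 < κ - J.sup' hJ δ
    rw [hqe]; linarith
  have hJη : ∀ q ∈ J, δ q + η ≤ κ := by
    intro q hq
    have hle : δ q ≤ J.sup' hJ δ := Finset.le_sup' δ hq
    show δ q + (κ - J.sup' hJ δ) ≤ κ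
    linarith
  -- cell masses
  have hmass : ∀ c ∈ S, (uniformProbOn K) (Lag K S w c) = ENNReal.ofReal (g c) := by
    intro c hc
    have h1 := h c hc
    unfold gM at h1
    rw [← h1, ENNReal.ofReal_toReal (measure_ne_top _ _)]
  have hmass' : ∀ c ∈ S, (uniformProbOn K) (Lag K S w' c) = ENNReal.ofReal (g c) := by
    intro c hc
    have h1 := h' c hc
    unfold gM at h1
    rw [← h1, ENNReal.ofReal_toReal (measure_ne_top _ _)]
  -- the mixed family of cells
  let f : E d → Set (E d) := fun c => if δ c = κ then Lag K S w' c else Lag K S w c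
  have hfm : ∀ c ∈ S, MeasurableSet (f c) := by
    intro c _
    by_cases hc : δ c = κ
    · simp only [f, if_pos hc]; exact (isClosed_Lag hK S w' c).measurableSet
    · simp only [f, if_neg hc]; exact (isClosed_Lag hK S w c).measurableSet
  have hfmass : ∀ c ∈ S, (uniformProbOn K) (f c) = ENNReal.ofReal (g c) := by
    intro c hc
    by_cases hc1 : δ c = κ
    · simp only [f, if_pos hc1]; exact hmass' c hc
    · simp only [f, if_neg hc1]; exact hmass c hc
  have hdisj : ∀ c ∈ S, ∀ c' ∈ S, δ c = κ → δ c' ≠ κ → Lag K S w' c ∩ Lag K S w c' = ∅ := by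
    intro c hc c' hc' h1 h2
    ext x
    simp only [Set.mem_inter_iff, Set.mem_empty_iff_false, iff_false]
    rintro ⟨hx, hx'⟩
    have e1 := hx.2 c' hc'
    have e2 := hx'.2 c hc
    have e3 : δ c' < κ := lt_of_le_of_ne (hκ c' hc') h2
    have e4 : w' c - w c = κ := h1
    have e5 : w' c' - w c' < κ := e3
    linarith
  have hfd : Set.Pairwise (↑S) (Function.onFun (AEDisjoint (uniformProbOn K)) f) := by
    intro c hc c' hc' hne
    show (uniformProbOn K) (f c ∩ f c') = 0
    by_cases h1 : δ c = κ <;> by_cases h2 : δ c' = κ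
    · simp only [f, if_pos h1, if_pos h2]; exact Lag_inter_null hK S w' hc hc' hne
    · simp only [f, if_pos h1, if_neg h2]
      rw [hdisj c hc c' hc' h1 h2]; exact measure_empty
    · simp only [f, if_neg h1, if_pos h2]
      rw [Set.inter_comm, hdisj c' hc' c hc h2 h1]; exact measure_empty
    · simp only [f, if_neg h1, if_neg h2]; exact Lag_inter_null hK S w hc hc' hne
  have htot : (uniformProbOn K) (⋃ c ∈ S, f c) = 1 := by
    rw [measure_biUnion_finset₀ hfd (fun c hc => (hfm c hc).nullMeasurableSet)]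
    rw [Finset.sum_congr rfl hfmass, ← Finset.sum_congr rfl hmass]
    exact sum_rho_Lag hK S hS w
  have hcompl : (uniformProbOn K) (⋃ c ∈ S, f c)ᶜ = 0 := by
    rw [prob_compl_eq_zero_iff (Finset.measurableSet_biUnion S hfm)]; exact htot
  -- the continuous gap function
  let Gi : E d → ℝ := fun x => I.sup' hI fun p => ⟪x, p⟫ - w p
  let Gj : E d → ℝ := fun x => J.sup' hJ fun q => ⟪x, q⟫ - w q
  have hGi : Continuous Gi := Continuous.finset_sup'_apply hI (fun p _ => by fun_prop)
  have hGj : Continuous Gj := Continuous.finset_sup'_apply hJ (fun q _ => by fun_prop)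
  have hlow : ∀ q ∈ J, ∀ x ∈ Lag K S w q, Gi x ≤ Gj x := by
    intro q hq x hx
    apply Finset.sup'_le
    intro p hp
    have e1 := hx.2 p (Finset.mem_filter.mp hp).1
    exact e1.trans (Finset.le_sup' (fun q => ⟪x, q⟫ - w q) hq)
  have hhigh : ∀ p ∈ I, ∀ x ∈ Lag K S w' p, Gj x + η ≤ Gi x := by
    intro p hp x hx
    obtain ⟨q, hq, hqe⟩ := Finset.exists_mem_eq_sup' hJ (fun q => ⟪x, q⟫ - w q)
    have e1 := hx.2 q (Finset.mem_filter.mp hq).1
    have e2 : w' p - w p = κ := (Finset.mem_filter.mp hp).2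
    have e3 : w' q - w q + η ≤ κ := hJη q hq
    have e4 : ⟪x, p⟫ - w p ≤ Gi x := Finset.le_sup' (fun p => ⟪x, p⟫ - w p) hp
    show J.sup' hJ (fun q => ⟪x, q⟫ - w q) + η ≤ Gi x
    rw [hqe]
    linarith
  let U : Set (E d) := {x | 0 < Gi x - Gj x ∧ Gi x - Gj x < η}
  have hUo : IsOpen U := by
    have hU : U = (fun x => Gi x - Gj x) ⁻¹' Set.Ioo 0 η := by
      ext x; simp [U]
    rw [hU]; exact isOpen_Ioo.preimage (hGi.sub hGj)
  have hUK : U ∩ K ⊆ (⋃ c ∈ S, f c)ᶜ := by
    rintro x ⟨⟨hx1, hx2⟩, _⟩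
    simp only [Set.mem_compl_iff, Set.mem_iUnion, not_exists]
    intro c hc hxc
    by_cases h1 : δ c = κ
    · simp only [f, if_pos h1] at hxc
      have e := hhigh c (Finset.mem_filter.mpr ⟨hc, h1⟩) x hxc
      linarith
    · simp only [f, if_neg h1] at hxc
      have e := hlow c (Finset.mem_filter.mpr ⟨hc, lt_of_le_of_ne (hκ c hc) h1⟩) x hxc
      linarith
  have hUnull : (uniformProbOn K) U = 0 := by
    have hsub : U ⊆ (U ∩ K) ∪ Kᶜ := by
      intro x hx
      by_cases hxK : x ∈ K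
      · exact Or.inl ⟨hx, hxK⟩
      · exact Or.inr hxK
    exact measure_mono_null hsub
      (measure_union_null (measure_mono_null hUK hcompl) (rho_compl hK))
  -- nonemptiness of `U ∩ K`
  obtain ⟨q₀, hq₀⟩ := hJ
  obtain ⟨p₀, hp₀⟩ := hI
  have hq₀S := (Finset.mem_filter.mp hq₀).1
  have hp₀S := (Finset.mem_filter.mp hp₀).1
  have hne0 : (Lag K S w q₀).Nonempty := by
    apply nonempty_of_measure_ne_zero (μ := uniformProbOn K)
    rw [hmass q₀ hq₀S]; exact (ENNReal.ofReal_pos.mpr (hg q₀ hq₀S)).ne'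
  have hne1 : (Lag K S w' p₀).Nonempty := by
    apply nonempty_of_measure_ne_zero (μ := uniformProbOn K)
    rw [hmass' p₀ hp₀S]; exact (ENNReal.ofReal_pos.mpr (hg p₀ hp₀S)).ne'
  obtain ⟨x₀, hx₀⟩ := hne0
  obtain ⟨x₁, hx₁⟩ := hne1
  have h0 := hlow q₀ hq₀ x₀ hx₀
  have h1 := hhigh p₀ hp₀ x₁ hx₁
  let γ : ℝ → E d := fun t => x₀ + t • (x₁ - x₀)
  have hγ : Continuous γ := by fun_prop
  have hcontG : ContinuousOn (fun t => Gi (γ t) - Gj (γ t)) (Set.Icc 0 1) :=
    ((hGi.comp hγ).sub (hGj.comp hγ)).continuousOn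
  have hγ0 : γ 0 = x₀ := by simp [γ]
  have hγ1 : γ 1 = x₁ := by simp [γ]
  have hmem : η / 2 ∈ Set.Icc (Gi (γ 0) - Gj (γ 0)) (Gi (γ 1) - Gj (γ 1)) := by
    rw [hγ0, hγ1]
    constructor <;> linarith
  obtain ⟨t, ht, hte⟩ := intermediate_value_Icc (by norm_num : (0 : ℝ) ≤ 1) hcontG hmem
  have hγK : γ t ∈ K := hK.convex.add_smul_sub_mem hx₀.1 hx₁.1 ht
  have hγU : γ t ∈ U := by
    show 0 < Gi (γ t) - Gj (γ t) ∧ Gi (γ t) - Gj (γ t) < η
    have he : Gi (γ t) - Gj (γ t) = η / 2 := hte
    rw [he]; constructor <;> linarith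
  have hpos := rho_pos_of_open hK hUo ⟨γ t, hγU, hγK⟩
  rw [hUnull] at hpos
  exact lt_irrefl _ hpos

end Crest.Agent.Helper56.OT
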